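import Mathlib
import Vale.Agent.P095.Exp

/-!
Estimates for a single block of almost Gaussian summands with soft coefficients.
-/

noncomputable section

open Finset

namespace Vale.Agent.P095

universe u v

namespace Blocks

variable {A : Type u} [CStarAlgebra A] {ι E κ : Type v} [Fintype ι] [Fintype E]
  {R : ℕ} {C D : ℝ} (B : Blocks A ι E κ R C) (w : ι → A)

/-- The factor of one block. -/
def rR : ℝ := (Real.sqrt R)⁻¹

/-- The linear combination of one block. -/
def S (r : Fin R) : A := lin w (B.q r)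

/-- The other blocks. -/
def Xr (r : Fin R) (a : ι) : A := (Real.sqrt R)⁻¹ • ∑ s ∈ univ.erase r, B.q s a

/-- The linear combination of the other blocks. -/
def Tr (r : Fin R) : A := lin w (B.Xr r)

/-- The quadratic form of one block. -/
def M (r : Fin R) : A := ∑ a, ∑ b, w a * w b * B.K r a b

omit [Fintype ι] in
lemma sa_q (r : Fin R) (a : ι) : IsSelfAdjoint (B.q r a) :=
  (IsSelfAdjoint.all _).smul (isSelfAdjoint_sum _ fun e _ => B.sa r e a)

omit [Fintype ι] in
lemma sa_Xr (r : Fin R) (a : ι) : IsSelfAdjoint (B.Xr r a) :=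
  (IsSelfAdjoint.all _).smul (isSelfAdjoint_sum _ fun s _ => B.sa_q s a)

omit [Fintype ι] in
lemma commute_z_q {r s : Fin R} (h : r ≠ s) (j : κ) (a : ι) :
    Commute (B.z r j) (B.q s a) :=
  (Commute.sum_right _ _ _ fun f _ => B.comm_zv r s h j f a).smul_right _

omit [Fintype ι] in
lemma commute_q_q {r s : Fin R} (h : r ≠ s) (a b : ι) : Commute (B.q r a) (B.q s b) :=
  ((Commute.sum_left _ _ _ fun e _ => Commute.sum_right _ _ _ fun f _ =>
    B.comm_vv r s h e a f b).smul_left _).smul_right _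

omit [Fintype ι] in
lemma commute_z_Xr (r : Fin R) (j : κ) (a : ι) : Commute (B.z r j) (B.Xr r a) :=
  (Commute.sum_right _ _ _ fun _ hs => B.commute_z_q (ne_of_mem_erase hs).symm j a).smul_right _

omit [Fintype ι] in
lemma commute_q_Xr (r : Fin R) (b a : ι) : Commute (B.q r b) (B.Xr r a) :=
  (Commute.sum_right _ _ _ fun _ hs => B.commute_q_q (ne_of_mem_erase hs).symm b a).smul_right _

omit [Fintype ι] in
lemma norm_sum_smul_le {t : ℝ} (ht : 0 ≤ t) {κ' : Type*} (s : Finset κ') (f : κ' → A) {c : ℝ}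
    (h : ∀ i ∈ s, ‖f i‖ ≤ c) : ‖t • ∑ i ∈ s, f i‖ ≤ t * (s.card * c) := by
  rw [norm_smul, Real.norm_eq_abs, abs_of_nonneg ht]
  refine mul_le_mul_of_nonneg_left ((norm_sum_le _ _).trans ?_) ht
  simpa using sum_le_card_nsmul _ _ _ h

lemma inv_sqrt_mul (k : ℕ) : (Real.sqrt k)⁻¹ * k = Real.sqrt k := by
  rcases Nat.eq_zero_or_pos k with rfl | hk
  · simp
  · have : Real.sqrt k ≠ 0 := by positivity
    field_simp
    rw [Real.sq_sqrt]; positivity

omit [Fintype ι] in
lemma norm_q (r : Fin R) (a : ι) : ‖B.q r a‖ ≤ Real.sqrt (Fintype.card E) * C := by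
  refine (norm_sum_smul_le (by positivity) _ _ fun e _ => B.norm_v r e a).trans (le_of_eq ?_)
  rw [← mul_assoc, card_univ, inv_sqrt_mul]

omit [Fintype ι] in
lemma norm_Xr (hC : 0 ≤ C) (r : Fin R) (a : ι) :
    ‖B.Xr r a‖ ≤ Real.sqrt R * (Real.sqrt (Fintype.card E) * C) := by
  refine (norm_sum_smul_le (by positivity) _ _ fun s _ => B.norm_q s a).trans ?_
  conv_rhs => rw [← inv_sqrt_mul R, mul_assoc (Real.sqrt R)⁻¹]
  refine mul_le_mul_of_nonneg_left ?_ (inv_nonneg.2 (Real.sqrt_nonneg _))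
  have hcard : ((univ.erase r).card : ℝ) ≤ R := by
    exact_mod_cast (card_erase_le).trans_eq (by simp)
  exact mul_le_mul_of_nonneg_right hcard (by positivity)

omit [Fintype ι] in
lemma norm_K (hC : 0 ≤ C) (r : Fin R) (a b : ι) : ‖B.K r a b‖ ≤ C * C := by
  refine (norm_sum_smul_le (by positivity) _ _ fun e _ => (norm_mul_le _ _).trans
    (mul_le_mul (B.norm_v r e a) (B.norm_v r e b) (norm_nonneg _) hC)).trans ?_
  rw [← mul_assoc, card_univ]
  refine mul_le_of_le_one_left (by positivity) ?_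
  exact inv_mul_le_one

lemma br_comm_norm (x y : A) : ‖br x y‖ = ‖br y x‖ := by
  rw [br, br, norm_sub_rev]

lemma br_smul (t : ℝ) (x y : A) : br x (t • y) = t • br x y := by
  simp only [br, mul_smul_comm, smul_mul_assoc, smul_sub]

lemma br_sum {κ' : Type*} (s : Finset κ') (x : A) (f : κ' → A) :
    br x (∑ i ∈ s, f i) = ∑ i ∈ s, br x (f i) := by
  simp only [br, mul_sum, sum_mul, sum_sub_distrib]

lemma br_of_commute {x y : A} (h : Commute x y) : br x y = 0 := by
  rw [br, h.eq, sub_self]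

omit [Fintype ι] in
lemma norm_br_q_w {w : ι → A} (hw : B.Soft w D) (r : Fin R) (a b : ι) :
    ‖br (w a) (B.q r b)‖ ≤ Real.sqrt (Fintype.card E) * (D / R) := by
  rw [q, br_smul, br_sum]
  refine (norm_sum_smul_le (by positivity) _ _ (c := D / R) fun e _ => ?_).trans (le_of_eq ?_)
  · rw [br_comm_norm]; exact hw.comm_v a r e b
  · rw [← mul_assoc, card_univ, inv_sqrt_mul]

omit [Fintype ι] in
lemma norm_br_Xr_w (hD : 0 ≤ D) {w : ι → A} (hw : B.Soft w D) (r : Fin R) (a b : ι) :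
    ‖br (w a) (B.Xr r b)‖ ≤ Real.sqrt R * (Real.sqrt (Fintype.card E) * (D / R)) := by
  rw [Xr, br_smul, br_sum]
  refine (norm_sum_smul_le (by positivity) _ _ fun s _ => B.norm_br_q_w hw s a b).trans ?_
  conv_rhs => rw [← inv_sqrt_mul R, mul_assoc (Real.sqrt R)⁻¹]
  refine mul_le_mul_of_nonneg_left ?_ (inv_nonneg.2 (Real.sqrt_nonneg _))
  have hcard : ((univ.erase r).card : ℝ) ≤ R := by
    exact_mod_cast (card_erase_le).trans_eq (by simp)
  exact mul_le_mul_of_nonneg_right hcard (mul_nonneg (Real.sqrt_nonneg _) (by positivity))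

end Blocks

section Lin

variable {A : Type u} [CStarAlgebra A] {ι : Type v} [Fintype ι]

lemma half_add_le {x y c : ℝ} (hx : x ≤ c) (hy : y ≤ c) : (2 : ℝ)⁻¹ * (x + y) ≤ c := by linarith

lemma norm_lin_le {u X : ι → A} {a b : ℝ} (hu : ∀ i, ‖u i‖ ≤ a) (hX : ∀ i, ‖X i‖ ≤ b) :
    ‖lin u X‖ ≤ Fintype.card ι * (a * b) := by
  refine (Blocks.norm_sum_smul_le (by norm_num) _ _ (c := 2 * (a * b)) fun i _ => ?_).trans
    (le_of_eq (by rw [card_univ]; ring))
  have ha : 0 ≤ a := (norm_nonneg _).trans (hu i)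
  have h1 := mul_le_mul (hu i) (hX i) (norm_nonneg _) ha
  have h2 := norm_mul_le (u i) (X i)
  have h3 := norm_mul_le (X i) (u i)
  have := norm_add_le (u i * X i) (X i * u i)
  linarith

lemma sn_lin_le {τ : A →ₗ[ℂ] ℂ} (hτ : IsTr τ) {u X : ι → A} {a b : ℝ} (hu : ∀ i, ‖u i‖ ≤ a)
    (hX : ∀ i, sn τ (X i) ≤ b) : sn τ (lin u X) ≤ Fintype.card ι * (a * b) := by
  rw [lin, hτ.sn_smul_real, abs_of_nonneg (by norm_num : (0 : ℝ) ≤ 2⁻¹)]
  refine (mul_le_mul_of_nonneg_left ((hτ.sn_sum_le _ _).trans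
    (sum_le_card_nsmul _ _ (2 * (a * b)) fun i _ => ?_)) (by norm_num)).trans
    (le_of_eq (by rw [card_univ, nsmul_eq_mul]; ring))
  have ha : 0 ≤ a := (norm_nonneg _).trans (hu i)
  have h1 := mul_le_mul (hu i) (hX i) (sn_nonneg _) ha
  have h2 := hτ.sn_mul_le_left (u i) (X i)
  have h3 := hτ.sn_mul_le_right (X i) (u i)
  have := hτ.sn_add_le (u i * X i) (X i * u i)
  linarith

lemma norm_br_lin_le {Z : A} {u X : ι → A} {a b a' b' : ℝ} (hu : ∀ i, ‖u i‖ ≤ a)
    (hX : ∀ i, ‖X i‖ ≤ b) (hu' : ∀ i, ‖br Z (u i)‖ ≤ a') (hX' : ∀ i, ‖br Z (X i)‖ ≤ b') :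
    ‖br Z (lin u X)‖ ≤ Fintype.card ι * (a' * b + a * b') := by
  rw [lin, Blocks.br_smul, Blocks.br_sum]
  refine (Blocks.norm_sum_smul_le (by norm_num) _ _ (c := 2 * (a' * b + a * b')) fun i _ => ?_).trans
    (le_of_eq (by rw [card_univ]; ring))
  have ha : 0 ≤ a := (norm_nonneg _).trans (hu i)
  have ha' : 0 ≤ a' := (norm_nonneg _).trans (hu' i)
  have e : br Z (u i * X i + X i * u i) =
      (br Z (u i) * X i + u i * br Z (X i)) + (br Z (X i) * u i + X i * br Z (u i)) := by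
    simp only [br]; noncomm_ring
  rw [e]
  have h1 := mul_le_mul (hu' i) (hX i) (norm_nonneg _) ha'
  have h2 := mul_le_mul (hu i) (hX' i) (norm_nonneg _) ha
  have := norm_add_le (br Z (u i) * X i + u i * br Z (X i)) (br Z (X i) * u i + X i * br Z (u i))
  have := norm_add_le (br Z (u i) * X i) (u i * br Z (X i))
  have := norm_add_le (br Z (X i) * u i) (X i * br Z (u i))
  have := norm_mul_le (br Z (u i)) (X i)
  have := norm_mul_le (u i) (br Z (X i))
  have := norm_mul_le (br Z (X i)) (u i)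
  have := norm_mul_le (X i) (br Z (u i))
  linarith

lemma br_lin_of_commute {z : A} {u X : ι → A} (h : ∀ i, Commute z (X i)) :
    br z (lin u X) = lin (fun i => br z (u i)) X := by
  rw [lin, lin, Blocks.br_smul, Blocks.br_sum]
  congr 1
  refine sum_congr rfl fun i _ => ?_
  have e : br z (u i * X i + X i * u i) =
      (br z (u i) * X i + u i * br z (X i)) + (br z (X i) * u i + X i * br z (u i)) := by
    simp only [br]; noncomm_ring
  rw [e, Blocks.br_of_commute (h i), mul_zero, zero_mul, add_zero, zero_add]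

end Lin

end Vale.Agent.P095
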