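import Mathlib
import Vale.Agent.P095.Gauss.Block

/-!
Trace estimates for a single block: flips kill odd terms.
-/

noncomputable section

open Finset

namespace Vale.Agent.P095

universe u v

variable {A : Type u} [CStarAlgebra A]

lemma br_mul' (x y z : A) : br x (y * z) = br x y * z + y * br x z := by
  simp only [br]; noncomm_ring

lemma IsTr.sn_br_mul_le {τ : A →ₗ[ℂ] ℂ} (hτ : IsTr τ) (z x y : A) :
    sn τ (br z (x * y)) ≤ sn τ (br z x) * ‖y‖ + sn τ x * ‖br z y‖ := by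
  rw [br_mul']
  exact (hτ.sn_add_le _ _).trans (add_le_add (hτ.sn_mul_le_right _ _) (hτ.sn_mul_le_right _ _))

lemma IsTr.sn_br_mul_le' {τ : A →ₗ[ℂ] ℂ} (hτ : IsTr τ) (z x y : A) :
    sn τ (br z (x * y)) ≤ ‖br z x‖ * sn τ y + ‖x‖ * sn τ (br z y) := by
  rw [br_mul']
  exact (hτ.sn_add_le _ _).trans (add_le_add (hτ.sn_mul_le_left _ _) (hτ.sn_mul_le_left _ _))

lemma IsTr.norm_map_sum_le {τ : A →ₗ[ℂ] ℂ} {κ' : Type*} (s : Finset κ') (f : κ' → A) {c : ℝ}
    (h : ∀ i ∈ s, ‖τ (f i)‖ ≤ c) : ‖τ (∑ i ∈ s, f i)‖ ≤ s.card * c := by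
  rw [map_sum]
  exact (norm_sum_le _ _).trans (by simpa using sum_le_card_nsmul _ _ _ h)

lemma norm_map_smul_real (τ : A →ₗ[ℂ] ℂ) (t : ℝ) (x : A) : ‖τ (t • x)‖ = |t| * ‖τ x‖ := by
  rw [← Complex.coe_smul, map_smul, norm_smul, Complex.norm_real, Real.norm_eq_abs]

namespace Blocks

variable {ι E κ : Type v} [Fintype E] {R : ℕ} {C D : ℝ}
  (B : Blocks A ι E κ R C) {τ : A →ₗ[ℂ] ℂ} (hτ : IsTr τ)

include hτ

/-- Single flips. -/
lemma norm_tr_q_le (hC : 0 ≤ C) (r : Fin R) (a : ι) {Z : A} {ρ : ℝ}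
    (hZ : ∀ j, sn τ (br (B.z r j) Z) ≤ ρ) :
    ‖τ (B.q r a * Z)‖ ≤ Real.sqrt (Fintype.card E) * C * ρ := by
  rw [q, smul_mul_assoc, sum_mul, norm_map_smul_real, abs_of_nonneg (by positivity)]
  refine (mul_le_mul_of_nonneg_left (IsTr.norm_map_sum_le univ _ (c := C * ρ) fun e _ => ?_)
    (by positivity)).trans (le_of_eq ?_)
  · obtain ⟨j, hj⟩ := B.single r e a
    exact (hτ.flip_le (B.z_sq r j) (B.z_sa r j) hj Z).trans
      (mul_le_mul ((hτ.sn_le_norm _).trans (B.norm_v r e a)) (hZ j) (sn_nonneg _) hC)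
  · rw [← mul_assoc, card_univ, inv_sqrt_mul, mul_assoc]

/-- Pair flips. -/
lemma norm_tr_qq_le (hC : 0 ≤ C) (r : Fin R) (a b : ι) {Z : A} {ρ : ℝ} (hρ : 0 ≤ ρ)
    (hZ : ∀ j, sn τ (br (B.z r j) Z) ≤ ρ) :
    ‖τ (B.q r a * B.q r b * Z) - τ (B.K r a b * Z)‖ ≤ Fintype.card E * (C * C * ρ) := by
  classical
  set k : ℝ := (Fintype.card E : ℝ) with hk
  have e1 : B.q r a * B.q r b * Z - B.K r a b * Z =
      k⁻¹ • ∑ e, ∑ f ∈ univ.erase e, B.v r e a * (B.v r f b * Z) := by
    have e2 : B.q r a * B.q r b = k⁻¹ • ∑ e, ∑ f, B.v r e a * B.v r f b := by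
      rw [q, q, smul_mul_smul_comm, sum_mul_sum, ← mul_inv, Real.mul_self_sqrt (by positivity)]
    rw [e2, K, ← hk, ← sub_mul, ← smul_sub, ← sum_sub_distrib, smul_mul_assoc, sum_mul]
    congr 1
    refine sum_congr rfl fun e _ => ?_
    rw [← sum_erase_eq_sub (mem_univ e), sum_mul]
    exact sum_congr rfl fun f _ => mul_assoc _ _ _
  rw [← map_sub, e1, norm_map_smul_real, abs_of_nonneg (by positivity)]
  refine (mul_le_mul_of_nonneg_left (IsTr.norm_map_sum_le univ _ (c := k * (C * C * ρ))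
    fun e _ => ?_) (by positivity)).trans ?_
  · refine (IsTr.norm_map_sum_le _ _ (c := C * C * ρ) fun f hf => ?_).trans ?_
    · rcases B.pair r e f a b (ne_of_mem_erase hf).symm with h | ⟨j, hj, hc⟩
      · rw [← mul_assoc, h, zero_mul, map_zero, norm_zero]
        positivity
      · refine (hτ.flip_le (B.z_sq r j) (B.z_sa r j) hj _).trans ?_
        rw [mul_assoc C C]
        refine mul_le_mul ((hτ.sn_le_norm _).trans (B.norm_v r e a)) ?_ (sn_nonneg _) hC
        refine (hτ.sn_br_mul_le' _ _ _).trans ?_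
        rw [br_of_commute hc, norm_zero, zero_mul, zero_add]
        exact mul_le_mul (B.norm_v r f b) (hZ j) (sn_nonneg _) hC
    · refine mul_le_mul_of_nonneg_right ?_ (by positivity)
      rw [hk]
      exact_mod_cast card_le_univ (univ.erase e)
  · rw [card_univ, ← hk, ← mul_assoc]
    exact mul_le_of_le_one_left (by positivity) inv_mul_le_one

/-- The other blocks are bounded in two-norm. -/
lemma sn_Xr_le (hC : 0 ≤ C) (r : Fin R) (a : ι) :
    sn τ (B.Xr r a) ≤ Real.sqrt (Fintype.card E) * C := by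
  set Q := Real.sqrt (Fintype.card E) * C with hQ
  set U : A := ∑ s ∈ univ.erase r, B.q s a with hU
  have hsa : IsSelfAdjoint U := isSelfAdjoint_sum _ fun s _ => B.sa_q s a
  have h0 : ∀ s s', s ≠ s' → τ (B.q s a * B.q s' a) = 0 := by
    intro s s' hss
    refine norm_le_zero_iff.1 ((B.norm_tr_q_le hτ hC s a (ρ := 0) fun j => ?_).trans_eq (mul_zero _))
    rw [br_of_commute (B.commute_z_q hss j a), hτ.sn_zero]
  have h1 : sn τ U ^ 2 ≤ R * Q ^ 2 := by
    rw [hτ.sq_sn, hsa.star_eq, hU, sum_mul_sum, map_sum, Complex.re_sum]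
    refine (sum_le_card_nsmul _ _ (Q ^ 2) fun s hs => ?_).trans ?_
    · rw [map_sum, sum_eq_single_of_mem s hs fun s' _ h => h0 s s' h.symm]
      refine (Complex.re_le_norm _).trans ((hτ.norm_map_le _).trans ((norm_mul_le _ _).trans ?_))
      rw [sq]
      exact mul_le_mul (B.norm_q s a) (B.norm_q s a) (norm_nonneg _) (by positivity)
    · rw [nsmul_eq_mul]
      refine mul_le_mul_of_nonneg_right ?_ (sq_nonneg _)
      exact_mod_cast (card_erase_le).trans_eq (by simp)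
  rw [Xr, ← hU, hτ.sn_smul_real, abs_of_nonneg (by positivity)]
  refine (sq_le_sq₀ (mul_nonneg (by positivity) (sn_nonneg _)) (by positivity)).1 ?_
  rw [mul_pow, inv_pow, Real.sq_sqrt (Nat.cast_nonneg R)]
  refine (mul_le_mul_of_nonneg_left h1 (by positivity)).trans ?_
  rw [← mul_assoc]
  exact mul_le_of_le_one_left (sq_nonneg _) inv_mul_le_one

variable [Fintype ι] {w : ι → A}

/-- One odd term. -/
lemma norm_tr_S_le (hC : 0 ≤ C) (hw : B.Soft w D) (r : Fin R) {Y : A} {ρ σ : ℝ}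
    (hσ : sn τ Y ≤ σ) (hY : ∀ j, sn τ (br (B.z r j) Y) ≤ ρ) :
    ‖τ (B.S w r * Y)‖ ≤ Fintype.card ι *
      (Real.sqrt (Fintype.card E) * C * (ρ * D + σ * (D / R))) := by
  rw [S, lin, smul_mul_assoc, sum_mul, norm_map_smul_real,
    abs_of_nonneg (by norm_num : (0 : ℝ) ≤ 2⁻¹)]
  refine (mul_le_mul_of_nonneg_left (IsTr.norm_map_sum_le univ _
    (c := 2 * (Real.sqrt (Fintype.card E) * C * (ρ * D + σ * (D / R)))) fun a _ => ?_)
      (by norm_num)).trans (le_of_eq (by rw [card_univ]; ring))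
  have hρσ : ∀ j, sn τ (br (B.z r j) (Y * w a)) ≤ ρ * D + σ * (D / R) := fun j =>
    (hτ.sn_br_mul_le _ _ _).trans (add_le_add
      (mul_le_mul (hY j) (hw.norm_w a) (norm_nonneg _) ((sn_nonneg _).trans (hY j)))
      (mul_le_mul hσ (hw.comm_z a r j) (norm_nonneg _) ((sn_nonneg _).trans hσ)))
  have hρσ' : ∀ j, sn τ (br (B.z r j) (w a * Y)) ≤ ρ * D + σ * (D / R) := fun j => by
    refine (hτ.sn_br_mul_le' _ _ _).trans (le_of_le_of_eq (add_le_add
      (mul_le_mul (hw.comm_z a r j) hσ (sn_nonneg _) ((norm_nonneg _).trans (hw.comm_z a r j)))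
      (mul_le_mul (hw.norm_w a) (hY j) (sn_nonneg _) ((norm_nonneg _).trans (hw.norm_w a)))) ?_)
    ring
  have e : (w a * B.q r a + B.q r a * w a) * Y = w a * (B.q r a * Y) + B.q r a * (w a * Y) := by
    noncomm_ring
  rw [e, map_add, hτ.comm (w a), mul_assoc (B.q r a) Y (w a), two_mul]
  exact (norm_add_le _ _).trans
    (add_le_add (B.norm_tr_q_le hτ hC r a hρσ) (B.norm_tr_q_le hτ hC r a hρσ'))

omit hτ in
lemma norm_S_sub_le (hw : B.Soft w D) (r : Fin R) :
    ‖B.S w r - ∑ a, w a * B.q r a‖ ≤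
      Fintype.card ι * (Real.sqrt (Fintype.card E) * (D / R)) := by
  have e : B.S w r - ∑ a, w a * B.q r a = (2 : ℝ)⁻¹ • ∑ a, -br (w a) (B.q r a) := by
    rw [S, lin, show (∑ a, w a * B.q r a) = (2 : ℝ)⁻¹ • ∑ a, (w a * B.q r a + w a * B.q r a) by
      rw [smul_sum]; exact sum_congr rfl fun a _ => by module, ← smul_sub, ← sum_sub_distrib]
    congr 1
    exact sum_congr rfl fun a _ => by simp only [br]; abel
  rw [e]
  refine (norm_sum_smul_le (by norm_num) _ _ fun a _ => by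
    rw [norm_neg]; exact B.norm_br_q_w hw r a a).trans ?_
  rw [card_univ]
  refine mul_le_of_le_one_left ?_ (by norm_num)
  rcases isEmpty_or_nonempty ι with h | ⟨⟨a⟩⟩
  · simp
  · exact mul_nonneg (Nat.cast_nonneg _) ((norm_nonneg _).trans (B.norm_br_q_w hw r a a))

/-- One even term. -/
lemma norm_tr_SS_le (hC : 0 ≤ C) (hD : 0 ≤ D) (hw : B.Soft w D) (r : Fin R) {Z : A} {ρ ζ : ℝ}
    (hρ : 0 ≤ ρ) (hζ : ‖Z‖ ≤ ζ) (hZ : ∀ j, sn τ (br (B.z r j) Z) ≤ ρ) :
    ‖τ (B.S w r * B.S w r * Z) - τ (M B w r * Z)‖ ≤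
      3 * (Fintype.card ι * (D * (Real.sqrt (Fintype.card E) * C))) *
          (Fintype.card ι * (Real.sqrt (Fintype.card E) * (D / R))) * ζ +
        Fintype.card ι * (Fintype.card ι * (Fintype.card E *
          (C * C * (ρ * (D * D) + ζ * (2 * D * (D / R)))))) := by
  set Q := Real.sqrt (Fintype.card E) * C with hQ
  set c1 := Fintype.card ι * (D * Q) with hc1
  set η := Fintype.card ι * (Real.sqrt (Fintype.card E) * (D / R)) with hη
  set S0 := ∑ a, w a * B.q r a with hS0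
  set W := ∑ a, ∑ b, w a * w b * (B.q r a * B.q r b) with hW
  have hS : ‖B.S w r‖ ≤ c1 := norm_lin_le hw.norm_w (B.norm_q r)
  have hS0' : ‖S0‖ ≤ c1 := by
    refine (norm_sum_le _ _).trans ((sum_le_card_nsmul _ _ (D * Q) fun a _ =>
      (norm_mul_le _ _).trans (mul_le_mul (hw.norm_w a) (B.norm_q r a) (norm_nonneg _) hD)).trans
        (le_of_eq ?_))
    rw [card_univ, nsmul_eq_mul]
  have hQ0 : 0 ≤ Q := by positivity
  have hc10 : 0 ≤ c1 := by positivity
  have h1 : ‖B.S w r * B.S w r - S0 * S0‖ ≤ 2 * c1 * η := by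
    rw [show B.S w r * B.S w r - S0 * S0 =
      (B.S w r - S0) * B.S w r + S0 * (B.S w r - S0) by noncomm_ring]
    refine (norm_add_le _ _).trans ((add_le_add (norm_mul_le _ _) (norm_mul_le _ _)).trans ?_)
    have hd := B.norm_S_sub_le hw r
    nlinarith [mul_le_mul hd hS (norm_nonneg _) ((norm_nonneg _).trans hd),
      mul_le_mul hS0' hd (norm_nonneg _) hc10]
  have h2 : ‖S0 * S0 - W‖ ≤ c1 * η := by
    have e : S0 * S0 - W = ∑ a, ∑ b, w a * br (B.q r a) (w b) * B.q r b := by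
      rw [hS0, hW, sum_mul_sum, ← sum_sub_distrib]
      refine sum_congr rfl fun a _ => ?_
      rw [← sum_sub_distrib]
      exact sum_congr rfl fun b _ => by simp only [br]; noncomm_ring
    rw [e]
    refine (norm_sum_le _ _).trans ((sum_le_card_nsmul _ _ (Fintype.card ι *
      (D * (Real.sqrt (Fintype.card E) * (D / R)) * Q)) fun a _ => ?_).trans (le_of_eq ?_))
    · refine (norm_sum_le _ _).trans ((sum_le_card_nsmul _ _ _ fun b _ => ?_).trans
        (le_of_eq (by rw [card_univ, nsmul_eq_mul])))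
      refine (norm_mul_le _ _).trans (mul_le_mul ((norm_mul_le _ _).trans (mul_le_mul (hw.norm_w a)
        ?_ (norm_nonneg _) hD)) (B.norm_q r b) (norm_nonneg _) (by positivity))
      rw [br_comm_norm]; exact B.norm_br_q_w hw r b a
    · rw [card_univ, nsmul_eq_mul, hc1, hη]; ring
  have h3 : ‖τ (W * Z) - τ (M B w r * Z)‖ ≤ Fintype.card ι * (Fintype.card ι *
      (Fintype.card E * (C * C * (ρ * (D * D) + ζ * (2 * D * (D / R)))))) := by
    have hone : ∀ a b, ‖τ (w a * w b * (B.q r a * B.q r b) * Z) - τ (w a * w b * B.K r a b * Z)‖ ≤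
        Fintype.card E * (C * C * (ρ * (D * D) + ζ * (2 * D * (D / R)))) := by
      intro a b
      have e : ∀ x : A, τ (w a * w b * x * Z) = τ (x * (Z * (w a * w b))) := fun x => by
        rw [show w a * w b * x * Z = (w a * w b) * (x * Z) by noncomm_ring, hτ.comm, mul_assoc]
      rw [e, e]
      have hζ0 : 0 ≤ ζ := (norm_nonneg _).trans hζ
      refine B.norm_tr_qq_le hτ hC r a b (by positivity) fun j => ?_
      refine (hτ.sn_br_mul_le _ _ _).trans (add_le_add ?_ ?_)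
      · exact mul_le_mul (hZ j) ((norm_mul_le _ _).trans (mul_le_mul (hw.norm_w a) (hw.norm_w b)
          (norm_nonneg _) hD)) (norm_nonneg _) hρ
      · refine mul_le_mul ((hτ.sn_le_norm _).trans hζ) ?_ (norm_nonneg _) hζ0
        rw [br_mul']
        refine (norm_add_le _ _).trans ((add_le_add (norm_mul_le _ _) (norm_mul_le _ _)).trans ?_)
        nlinarith [mul_le_mul (hw.comm_z a r j) (hw.norm_w b) (norm_nonneg _)
            ((norm_nonneg _).trans (hw.comm_z a r j)),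
          mul_le_mul (hw.norm_w a) (hw.comm_z b r j) (norm_nonneg _) hD]
    rw [hW, M, sum_mul, sum_mul, map_sum, map_sum, ← sum_sub_distrib]
    refine (norm_sum_le _ _).trans ((sum_le_card_nsmul _ _ _ fun a _ => ?_).trans
      (le_of_eq (by rw [card_univ, nsmul_eq_mul])))
    rw [sum_mul, sum_mul, map_sum, map_sum, ← sum_sub_distrib]
    exact (norm_sum_le _ _).trans ((sum_le_card_nsmul _ _ _ fun b _ => hone a b).trans
      (le_of_eq (by rw [card_univ, nsmul_eq_mul])))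
  have h4 : ‖τ (B.S w r * B.S w r * Z) - τ (W * Z)‖ ≤ 3 * c1 * η * ζ := by
    rw [← map_sub, ← sub_mul]
    refine (hτ.norm_map_le _).trans ((norm_mul_le _ _).trans ?_)
    have h12 : ‖B.S w r * B.S w r - W‖ ≤ 3 * c1 * η := by
      have := norm_sub_le_norm_sub_add_norm_sub (B.S w r * B.S w r) (S0 * S0) W
      linarith
    exact mul_le_mul h12 hζ (norm_nonneg _) ((norm_nonneg _).trans h12)
  exact (norm_sub_le_norm_sub_add_norm_sub _ (τ (W * Z)) _).trans (add_le_add h4 h3)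

end Blocks

end Vale.Agent.P095
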